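import Vale.Agent.P042.H386.K2
import Vale.Agent.P042.H739.LowF

set_option autoImplicit false

/-!
P042: the sum of the tilts over the primes of the low part and the size of one tilt.
-/

namespace Vale.Agent.P042.H377

open Finset

/-- the entropy of a law of density at most `p ^ α` -/
theorem kLu_le {X : Type*} [Fintype X] (w : X → ℝ) (p α : ℝ) (hp : 1 ≤ p) (hα : 0 < α)
    (w0 : ∀ x, 0 ≤ w x) (w1 : ∑ x, w x = 1) (hc : (Fintype.card X : ℝ) = p)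
    (hs : ∀ x, p * w x ≤ p ^ α) : H386.kLu w ≤ p ^ (2 * α) := by
  have hp0 : 0 < p := by linarith
  have hL : 0 ≤ α * Real.log p := mul_nonneg hα.le (Real.log_nonneg hp)
  have h1 : H386.kLu w ≤ ∑ x, w x * (α * Real.log p) := by
    unfold H386.kLu
    refine sum_le_sum fun x _ => ?_
    rcases (w0 x).eq_or_lt with h | h
    · rw [← h]
      simp
    · refine mul_le_mul_of_nonneg_left ?_ h.le
      rw [hc, ← Real.log_rpow hp0]
      exact Real.log_le_log (mul_pos hp0 h) (hs x)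
  rw [← sum_mul, w1, one_mul, ← Real.log_rpow hp0] at h1
  have h2 : Real.log (p ^ α) ≤ p ^ α - 1 :=
    Real.log_le_sub_one_of_pos (Real.rpow_pos_of_pos hp0 _)
  have h3 : p ^ α ≤ p ^ (2 * α) := Real.rpow_le_rpow_of_exponent_le hp (by linarith)
  linarith

/-- the root of the entropy -/
theorem sqrt_kLu_le {X : Type*} [Fintype X] (w : X → ℝ) (p α : ℝ) (hp : 1 ≤ p) (hα : 0 < α)
    (w0 : ∀ x, 0 ≤ w x) (w1 : ∑ x, w x = 1) (hc : (Fintype.card X : ℝ) = p)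
    (hs : ∀ x, p * w x ≤ p ^ α) : √(H386.kLu w) ≤ p ^ α := by
  have hp0 : 0 < p := by linarith
  have h1 := Real.sqrt_le_sqrt (kLu_le w p α hp hα w0 w1 hc hs)
  have h2 : p ^ (2 * α) = (p ^ α) ^ 2 := by
    rw [mul_comm, Real.rpow_mul hp0.le]
    norm_num
  rwa [h2, Real.sqrt_sq (Real.rpow_nonneg hp0.le _)] at h1

/-- the size of one tilt -/
theorem tilt_b {X : Type*} [Fintype X] (w : X → ℝ) (p α : ℝ) (hp : 1 ≤ p) (hα : 0 < α)
    (w0 : ∀ x, 0 ≤ w x) (w1 : ∑ x, w x = 1) (hc : (Fintype.card X : ℝ) = p)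
    (hs : ∀ x, p * w x ≤ p ^ α) :
    p ^ (7 * α - 1 / 2) * √(H386.kLu w) ≤ p ^ (8 * α - 1 / 2) := by
  have hp0 : 0 < p := by linarith
  have h1 := mul_le_mul_of_nonneg_left (sqrt_kLu_le w p α hp hα w0 w1 hc hs)
    (Real.rpow_nonneg hp0.le (7 * α - 1 / 2))
  refine h1.trans (le_of_eq ?_)
  rw [← Real.rpow_add hp0]
  congr 1
  ring

/-- the sum of the powers `n ^ (a - 1)` -/
theorem sum_pow_le (a : ℝ) (ha : 1 / 2 ≤ a) (ha1 : a ≤ 1) (N : ℕ) :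
    ∑ n ∈ Icc 1 N, (n : ℝ) ^ (a - 1) ≤ 2 * (N : ℝ) ^ a := by
  induction N with
  | zero =>
    simp only [Nat.cast_zero]
    rw [Real.zero_rpow (by linarith)]
    simp
  | succ N ih =>
    rw [sum_Icc_succ_top (by omega)]
    have hN : (0 : ℝ) < (N : ℝ) + 1 := by positivity
    have e1 : ((N + 1 : ℕ) : ℝ) = (N : ℝ) + 1 := by push_cast; ring
    rw [e1]
    have h1 : ((N : ℝ) / (N + 1)) ^ a ≤ 1 - a / (N + 1) := by
      have h2 : (N : ℝ) / (N + 1) = 1 + (-(1 / (N + 1))) := by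
        field_simp
        ring
      rw [h2]
      have h3 : -1 ≤ -(1 / ((N : ℝ) + 1)) := by
        have : 1 / ((N : ℝ) + 1) ≤ 1 := by
          rw [div_le_one hN]
          have : (0 : ℝ) ≤ N := Nat.cast_nonneg N
          linarith
        linarith
      have h4 := rpow_one_add_le_one_add_mul_self h3 (by linarith : (0 : ℝ) ≤ a) ha1
      refine h4.trans (le_of_eq ?_)
      ring
    rw [Real.div_rpow (Nat.cast_nonneg N) hN.le] at h1
    have hp : 0 < ((N : ℝ) + 1) ^ a := Real.rpow_pos_of_pos hN _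
    rw [div_le_iff₀ hp] at h1
    have h5 : ((N : ℝ) + 1) ^ (a - 1) = ((N : ℝ) + 1) ^ a / (N + 1) := by
      rw [Real.rpow_sub hN, Real.rpow_one]
    rw [h5]
    have h6 : (1 - a / ((N : ℝ) + 1)) * ((N : ℝ) + 1) ^ a =
        ((N : ℝ) + 1) ^ a - a * (((N : ℝ) + 1) ^ a / (N + 1)) := by ring
    rw [h6] at h1
    have h7 : 0 ≤ ((N : ℝ) + 1) ^ a / (N + 1) := by positivity
    nlinarith

/-- the sum of the tilts over the primes of the low part -/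
theorem sumB (g α : ℝ) (hg : 0 < g) (_hg2 : g ≤ 1 / 2) (hα : 0 < α) (hα2 : α ≤ g / 128) :
    ∃ P0 : ℝ, ∀ P : ℝ, P0 ≤ P → ∀ K0 : ℕ,
      ∑ i : {p // p ∈ H739.Wst K0 g P}, (((i.1 : ℕ) : ℝ) ^ (8 * α - 1 / 2) +
        ((i.1 : ℕ) : ℝ) ^ (8 * α - 1 / 2)) ≤ P ^ (1 - g / 4) := by
  have hlim : ∀ᶠ P : ℝ in Filter.atTop, 4 ≤ P ^ (g / 8) :=
    (tendsto_rpow_atTop (by positivity)).eventually (Filter.eventually_ge_atTop _)
  obtain ⟨P0, hP0⟩ := Filter.eventually_atTop.1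
    (hlim.and (Filter.eventually_ge_atTop (1 : ℝ)))
  refine ⟨P0, fun P hP K0 => ?_⟩
  obtain ⟨h4, h1⟩ := hP0 P hP
  have hPp : 0 < P := by linarith
  rw [sum_coe_sort (H739.Wst K0 g P) (fun n : ℕ => (n : ℝ) ^ (8 * α - 1 / 2) +
    (n : ℝ) ^ (8 * α - 1 / 2))]
  have hsub : H739.Wst K0 g P ⊆ Icc 1 ⌊P ^ (2 - g)⌋₊ := by
    intro p hp
    unfold H739.Wst at hp
    rw [mem_filter, mem_range] at hp
    rw [mem_Icc]
    have := hp.2.1.pos
    omega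
  have hnn : ∀ n : ℕ, 0 ≤ (n : ℝ) ^ (8 * α - 1 / 2) + (n : ℝ) ^ (8 * α - 1 / 2) := by
    intro n
    have := Real.rpow_nonneg (Nat.cast_nonneg n : (0 : ℝ) ≤ n) (8 * α - 1 / 2)
    linarith
  have h5 := sum_le_sum_of_subset_of_nonneg hsub (f := fun n : ℕ => (n : ℝ) ^ (8 * α - 1 / 2) +
    (n : ℝ) ^ (8 * α - 1 / 2)) (fun n _ _ => hnn n)
  refine h5.trans ?_
  have h6 := sum_pow_le (1 / 2 + 8 * α) (by linarith) (by linarith) ⌊P ^ (2 - g)⌋₊
  have e1 : (1 / 2 + 8 * α - 1 : ℝ) = 8 * α - 1 / 2 := by ring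
  rw [e1] at h6
  rw [sum_add_distrib]
  have h7 : ((⌊P ^ (2 - g)⌋₊ : ℕ) : ℝ) ^ (1 / 2 + 8 * α) ≤ P ^ (1 - 3 * g / 8) := by
    have h8 : ((⌊P ^ (2 - g)⌋₊ : ℕ) : ℝ) ≤ P ^ (2 - g) :=
      Nat.floor_le (Real.rpow_nonneg hPp.le _)
    refine (Real.rpow_le_rpow (Nat.cast_nonneg _) h8 (by linarith)).trans ?_
    rw [← Real.rpow_mul hPp.le]
    refine Real.rpow_le_rpow_of_exponent_le h1 ?_
    nlinarith
  have h9 : P ^ (1 - g / 4) = P ^ (g / 8) * P ^ (1 - 3 * g / 8) := by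
    rw [← Real.rpow_add hPp]
    congr 1
    ring
  have h10 : 0 ≤ P ^ (1 - 3 * g / 8) := Real.rpow_nonneg hPp.le _
  rw [h9]
  nlinarith [mul_le_mul_of_nonneg_right h4 h10]

end Vale.Agent.P042.H377
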